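import Vale.Agent.P101.Bridge.StatementBridge

/-!
# P101: the Kirchberg–Rørdam character question
-/

open TopologicalSpace

namespace Vale.Agent.Results.P101.CharacterQuestion

open Vale.Agent.P101.KR.Seq Vale.Agent.P101.Bridge in
/-- Absence of characters on `A_ω ∩ A'` gives `A ≅ A ⊗ 𝒵`, and is equivalent to the relations of
all `Z_{n,n+1}` in `A_ω ∩ A'`. -/
theorem result : ∀ (A : Type) [CStarAlgebra A] [SeparableSpace A] [Nontrivial A]
    (ω : Ultrafilter ℕ), (ω : Filter ℕ) ≤ Filter.cofinite →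
    (¬ HasCharacter A ω → ∀ (D : Type) [CStarAlgebra D], IsZ D →
      (∃ (C : Type) (_ : CStarAlgebra C) (ιA : A →⋆ₐ[ℂ] C) (ιD : D →⋆ₐ[ℂ] C),
        IsTensorGen ιA ιD) ∧
      ∀ (C : Type) [CStarAlgebra C] (ιA : A →⋆ₐ[ℂ] C) (ιD : D →⋆ₐ[ℂ] C),
        IsTensorGen ιA ιD → Nonempty (A ≃⋆ₐ[ℂ] C)) ∧
    (¬ HasCharacter A ω ↔ ∀ n, 2 ≤ n → HasDropRelations A ω n) :=
  fun A _ _ _ ω hω => answer' A ω hω

end Vale.Agent.Results.P101.CharacterQuestion
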