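import Vale.Agent.P101.FreeGap

/-!
# P101: states with a commutator gap give characters of the central sequence algebra
-/

namespace Vale.Agent.Results.P101.CommutatorGap

open Filter Topology
open Vale.Agent.P101.FreeGap
open scoped InnerProductSpace

/-- Bounded sequences asymptotically commuting in norm with every element of `A` along `ω`. -/
def IsCentral {A : Type} [CStarAlgebra A] (ω : Ultrafilter ℕ) (x : ℕ → A) : Prop :=
  (∃ C : ℝ, ∀ n, ‖x n‖ ≤ C) ∧
    ∀ a : A, Tendsto (fun n => ‖x n * a - a * x n‖) (ω : Filter ℕ) (𝓝 0)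

/-- A nonzero multiplicative `*`-functional on central sequences modulo sequences null along `ω`,
that is, a character of `A_ω ∩ A'`. -/
def HasCharacter (A : Type) [CStarAlgebra A] (ω : Ultrafilter ℕ) : Prop :=
  ∃ χ : (ℕ → A) → ℂ, χ 1 = 1 ∧
    (∀ x y, IsCentral ω x → IsCentral ω y → χ (x + y) = χ x + χ y ∧ χ (x * y) = χ x * χ y) ∧
    (∀ (c : ℂ) x, IsCentral ω x → χ (c • x) = c * χ x) ∧
    (∀ x, IsCentral ω x → χ (star x) = star (χ x)) ∧
    ∀ x y, IsCentral ω x → IsCentral ω y →
      Tendsto (fun n => ‖x n - y n‖) (ω : Filter ℕ) (𝓝 0) → χ x = χ y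

/-- A vector whose variance is controlled by finitely many commutators gives a character. -/
theorem of_gap (A : Type) [CStarAlgebra A] (ω : Ultrafilter ℕ) (H : Type) [NormedAddCommGroup H]
    [InnerProductSpace ℂ H] [CompleteSpace H] (π : A →⋆ₐ[ℂ] (H →L[ℂ] H)) (e : H) (he : ‖e‖ = 1)
    (s : Finset A) (K : ℝ)
    (hgap : ∀ x : A, ‖π x e - ⟪e, π x e⟫_ℂ • e‖ ≤ K * ∑ a ∈ s, ‖x * a - a * x‖) :
    HasCharacter A ω := by
  let φ : A → ℂ := fun b => ⟪e, π b e⟫_ℂ
  have hop : ∀ b (v : H), ‖π b v‖ ≤ ‖b‖ * ‖v‖ := fun b v =>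
    ((π b).le_opNorm v).trans (mul_le_mul_of_nonneg_right
      (NonUnitalStarAlgHom.norm_apply_le π b) (norm_nonneg v))
  have hcont : ∀ b, ‖φ b‖ ≤ ‖b‖ := fun b => by
    refine (norm_inner_le_norm _ _).trans ?_
    simpa [he] using hop b e
  let χ : (ℕ → A) → ℂ := fun x => limUnder (ω : Filter ℕ) fun n => φ (x n)
  have hlim : ∀ x : ℕ → A, (∃ C : ℝ, ∀ n, ‖x n‖ ≤ C) →
      Tendsto (fun n => φ (x n)) (ω : Filter ℕ) (𝓝 (χ x)) := fun x ⟨C, hC⟩ => by
    refine tendsto_nhds_limUnder ?_
    obtain ⟨c, -, hc⟩ := (isCompact_closedBall (0 : ℂ) C).ultrafilter_le_nhds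
      (ω.map fun n => φ (x n)) (by
        rw [le_principal_iff, Ultrafilter.coe_map]
        exact Filter.mem_map.2 (Filter.Eventually.of_forall fun n =>
          mem_closedBall_zero_iff.2 ((hcont _).trans (hC n))))
    exact ⟨c, hc⟩
  have hlim' : ∀ x c, Tendsto (fun n => φ (x n)) (ω : Filter ℕ) (𝓝 c) → χ x = c :=
    fun x c h => h.limUnder_eq
  refine ⟨χ, hlim' _ _ ?_, fun x y hx hy => ⟨hlim' _ _ ?_, hlim' _ _ ?_⟩,
    fun c x hx => hlim' _ _ ?_, fun x hx => hlim' _ _ ?_, fun x y hx hy h => hlim' _ _ ?_⟩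
  · have h1 : φ 1 = 1 := by simp [φ, inner_self_eq_norm_sq_to_K, he]
    simp [h1]
  · refine ((hlim x hx.1).add (hlim y hy.1)).congr fun n => ?_
    simp [φ, map_add]
  · obtain ⟨C, hC⟩ := hx.1
    have hC0 : 0 ≤ C := (norm_nonneg _).trans (hC 0)
    have hvar : Tendsto (fun n => ∑ a ∈ s, ‖y n * a - a * y n‖) (ω : Filter ℕ) (𝓝 0) := by
      simpa using tendsto_finsetSum s fun a _ => hy.2 a
    have key : Tendsto (fun n => φ ((x * y) n) - φ (x n) * φ (y n)) (ω : Filter ℕ) (𝓝 0) := by
      refine squeeze_zero_norm (fun n => ?_) (by simpa using (hvar.const_mul K).const_mul C)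
      have h1 : φ ((x * y) n) - φ (x n) * φ (y n)
          = ⟪e, π (x n) (π (y n) e - φ (y n) • e)⟫_ℂ := by
        simp only [φ, Pi.mul_apply, map_mul, mul_apply_eq_comp, map_sub, map_smul,
          inner_sub_right, inner_smul_right]
        ring
      rw [h1]
      refine (norm_inner_le_norm _ _).trans ?_
      rw [he, one_mul]
      exact (hop _ _).trans (mul_le_mul (hC n) (hgap _) (norm_nonneg _) hC0)
    simpa using key.add ((hlim x hx.1).mul (hlim y hy.1))
  · refine ((hlim x hx.1).const_mul c).congr fun n => ?_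
    simp [φ]
  · refine ((hlim x hx.1).star).congr fun n => ?_
    simp only [φ, Pi.star_apply, map_star, ContinuousLinearMap.star_eq_adjoint,
      ContinuousLinearMap.adjoint_inner_right]
    exact inner_conj_symm _ _
  · have hd : Tendsto (fun n => φ (x n) - φ (y n)) (ω : Filter ℕ) (𝓝 0) := by
      refine squeeze_zero_norm (fun n => ?_) h
      have h1 : φ (x n) - φ (y n) = φ (x n - y n) := by simp [φ, map_sub]
      rw [h1]
      exact hcont _
    simpa using hd.add (hlim y hy.1)

/-- Unital star representations on a Hilbert space. -/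
abbrev Rep (A H : Type) [CStarAlgebra A] [NormedAddCommGroup H] [InnerProductSpace ℂ H]
    [CompleteSpace H] : Type :=
  A →⋆ₐ[ℂ] (H →L[ℂ] H)

/-- The image of an element applied to a vector. -/
noncomputable def ap {A H : Type} [CStarAlgebra A] [NormedAddCommGroup H] [InnerProductSpace ℂ H]
    [CompleteSpace H] (π : Rep A H) (x : A) (v : H) : H :=
  π x v

/-- The Hilbert space of square summable functions on the free group. -/
abbrev Ltwo : Type := lp (fun _ : G => ℂ) 2

/-- Some representation has a unit vector whose variance is controlled by commutators with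
finitely many elements. -/
def HasGap (A : Type) [CStarAlgebra A] : Prop :=
  ∃ (H : Type) (_ : NormedAddCommGroup H) (_ : InnerProductSpace ℂ H) (_ : CompleteSpace H)
    (π : Rep A H) (e : H) (s : Finset A) (K : ℝ), ‖e‖ = 1 ∧
      ∀ x : A, ‖ap π x e - ⟪e, ap π x e⟫_ℂ • e‖ ≤ K * ∑ a ∈ s, ‖x * a - a * x‖

/-- Some representation has a rank-one projection in its image. -/
def HasRankOne (A : Type) [CStarAlgebra A] : Prop :=
  ∃ (H : Type) (_ : NormedAddCommGroup H) (_ : InnerProductSpace ℂ H) (_ : CompleteSpace H)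
    (π : Rep A H) (e : H) (a : A), ‖e‖ = 1 ∧ ∀ v : H, ap π a v = ⟪e, v⟫_ℂ • e

/-- Some representation on the square summable functions on the free group is invariant under
right translations and contains the left translations by the two generators. -/
def HasFreeRep (A : Type) [CStarAlgebra A] : Prop :=
  ∃ π : Rep A Ltwo,
    (∀ (x : A) (g h k : G), ap π x (dlt (h * k)) (g * k) = ap π x (dlt h) g) ∧
    ∀ i : Fin 2, ∃ u : A, ∀ h : G, ap π u (dlt h) = dlt (FreeGroup.of i * h)

/-- The gap theorem, with a rank-one image and the free-group factor as instances. -/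
theorem result : ∀ (A : Type) [CStarAlgebra A] (ω : Ultrafilter ℕ),
    HasGap A ∨ HasRankOne A ∨ HasFreeRep A → HasCharacter A ω := by
  simp only [HasGap, HasRankOne, HasFreeRep, ap]
  rintro A _ ω (⟨H, _, _, _, π, e, s, K, he, h⟩ | ⟨H, _, _, _, π, e, a, he, ha⟩ | ⟨π, hR, hL⟩)
  · exact of_gap A ω H π e he s K h
  · refine of_gap A ω H π e he {a} 1 fun x => ?_
    rw [Finset.sum_singleton, one_mul]
    have h1 : π x e - ⟪e, π x e⟫_ℂ • e = π (x * a - a * x) e := by
      simp [map_sub, map_mul, ha, inner_self_eq_norm_sq_to_K, he]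
    rw [h1]
    refine ((π _).le_opNorm e).trans ?_
    rw [he, mul_one]
    exact NonUnitalStarAlgHom.norm_apply_le π _
  · classical
    choose u hu using hL
    refine of_gap A ω _ π (dlt 1) (by simp [dlt, lp.norm_single]) (Finset.univ.image u) 10
      fun x => ?_
    set M := ∑ a ∈ Finset.univ.image u, ‖x * a - a * x‖ with hM
    have hM0 : 0 ≤ M := Finset.sum_nonneg fun a _ => norm_nonneg _
    set f := π x (dlt 1) with hfdef
    have hd : ∀ i : Fin 2,
        Summable (fun g => ‖f (cj (FreeGroup.of i) g) - f g‖ ^ 2) ∧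
        ∑' g, ‖f (cj (FreeGroup.of i) g) - f g‖ ^ 2 ≤ M ^ 2 := by
      intro i
      set d := π (x * u i - u i * x) (dlt 1) with hddef
      have hn : ‖d‖ ≤ M := by
        refine ((π _).le_opNorm _).trans ?_
        rw [show ‖dlt 1‖ = 1 by simp [dlt, lp.norm_single], mul_one]
        refine (NonUnitalStarAlgHom.norm_apply_le π _).trans ?_
        exact Finset.single_le_sum (f := fun a => ‖x * a - a * x‖) (fun a _ => norm_nonneg _)
          (Finset.mem_image_of_mem u (Finset.mem_univ i))
      have hc : ∀ g, d (FreeGroup.of i * g) = f (cj (FreeGroup.of i) g) - f g := by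
        intro g
        have r := hR x (FreeGroup.of i * g * (FreeGroup.of i)⁻¹) 1 (FreeGroup.of i)
        rw [one_mul, inv_mul_cancel_right] at r
        rw [hddef, map_sub, sub_apply, map_mul, map_mul, mul_apply_eq_comp, mul_apply_eq_comp,
          lp.coeFn_sub, Pi.sub_apply, op_shift (π (u i)) (FreeGroup.of i) (hu i), inv_mul_cancel_left,
          show π (u i) (dlt 1) = dlt (FreeGroup.of i) by rw [dlt, hu i, mul_one],
          cj_apply, hfdef]
        exact congrArg (fun z => z - (π x (dlt 1)) g) r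
      have hs := ((Equiv.mulLeft (FreeGroup.of i)).hasSum_iff).2 (sq_summable d)
      simp only [Function.comp_def, Equiv.coe_mulLeft, hc] at hs
      exact ⟨hs.summable, hs.tsum_eq.trans_le (pow_le_pow_left₀ (norm_nonneg d) hn 2)⟩
    have hgap := gap (fun g => f g) (sq_summable f).summable (M ^ 2) hd
    have hi : ⟪dlt 1, f⟫_ℂ = f 1 := by simp [dlt, lp.inner_single_left]
    rw [hi]
    set v := f - f 1 • dlt 1 with hv
    have hsq : ‖v‖ ^ 2 ≤ (10 * M) ^ 2 := by
      rw [← (sq_summable v).tsum_eq]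
      refine le_trans (le_of_eq (tsum_congr fun g => ?_)) (hgap.trans (le_of_eq (by ring)))
      by_cases hg : g = 1
      · subst hg
        rw [hv, lp.coeFn_sub, Pi.sub_apply, lp.coeFn_smul, Pi.smul_apply, dlt,
          lp.single_apply_self]
        simp
      · rw [hv, lp.coeFn_sub, Pi.sub_apply, lp.coeFn_smul, Pi.smul_apply, dlt,
          lp.single_apply_ne _ _ _ hg]
        simp [hg]
    exact (sq_le_sq₀ (norm_nonneg v) (by positivity)).1 hsq

end Vale.Agent.Results.P101.CommutatorGap
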